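import Vale.Agent.P249.Upper
import Vale.Agent.P249.Lower
import Vale.Agent.P249.Eps
import Vale.Agent.P249.Eps2

open MeasureTheory Filter Topology

namespace Vale.Agent.Results.P249.AllDistortions

open Vale.Agent.P249

/-- Nonlinear dimension reduction in `L_p`, `1 < p < ∞`, at every distortion `D > 1`.

1. For every `D > 1` and every `ε > 0` there is `C > 0` with `d_p(n, D) ≤ C n ^ ε` for all `n ≥ 2`.
2. For every `D > 1` and every `ε > 0`: `d_p(n, D) / n ^ ε → 0`; in particular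
3. for every `D > 1`: `d_p(n, D) / n → 0`, i.e. `d_p(n, D) = o(n)`.
4. There is `C₀ ≥ 1` such that for every `D ≥ C₀` there is `C > 0` with
   `d_p(n, D) ≤ C n ^ (C₀ / √D)` for all `n ≥ 2`.
5. If `p > 2`: `d_p(n, D) ≥ c D ^ (-p) (log n / log log n) ^ (p / 2)` for all `D > 1`, `n ≥ 16`. -/
theorem result (p : ℝ) (hp : 1 < p) :
    (∀ D : ℝ, 1 < D → ∀ ε : ℝ, 0 < ε → ∃ C : ℝ, 0 < C ∧ ∀ n : ℕ, 2 ≤ n →
      Suffices p D n (dp p D n) ∧ (dp p D n : ℝ) ≤ C * (n : ℝ) ^ ε) ∧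
    (∀ D : ℝ, 1 < D → ∀ ε : ℝ, 0 < ε →
      Tendsto (fun n : ℕ => (dp p D n : ℝ) / (n : ℝ) ^ ε) atTop (𝓝 0)) ∧
    (∀ D : ℝ, 1 < D → Tendsto (fun n : ℕ => (dp p D n : ℝ) / (n : ℝ)) atTop (𝓝 0)) ∧
    (∃ C₀ : ℝ, 1 ≤ C₀ ∧ ∀ D : ℝ, C₀ ≤ D → ∃ C : ℝ, 0 < C ∧ ∀ n : ℕ, 2 ≤ n →
      (dp p D n : ℝ) ≤ C * (n : ℝ) ^ (C₀ / Real.sqrt D)) ∧
    (2 < p → ∃ c : ℝ, 0 < c ∧ ∀ D : ℝ, 1 < D → ∀ n : ℕ, 16 ≤ n →
      c * (Real.log n / Real.log (Real.log n)) ^ (p / 2) / D ^ p ≤ (dp p D n : ℝ)) := by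
  obtain ⟨C₀, hC₀, h1⟩ := eps_bound p hp.le
  have hmain : ∀ D : ℝ, 1 < D → ∀ ε : ℝ, 0 < ε → ∃ C : ℝ, 0 < C ∧ ∀ n : ℕ, 2 ≤ n →
      Suffices p D n (dp p D n) ∧ (dp p D n : ℝ) ≤ C * (n : ℝ) ^ ε := by
    intro D hD ε hε
    exact eps_bound2 p hp D hD ε hε
  have hlim0 : ∀ D : ℝ, 1 < D → ∀ ε : ℝ, 0 < ε →
      Tendsto (fun n : ℕ => (dp p D n : ℝ) / (n : ℝ) ^ ε) atTop (𝓝 0) := by
    intro D hD ε hε
    obtain ⟨C', hC', h5⟩ := hmain D hD (ε / 2) (by positivity)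
    have hlim : Tendsto (fun n : ℕ => C' * ((n : ℝ) ^ (ε / 2))⁻¹) atTop (𝓝 0) := by
      have h7 : Tendsto (fun n : ℕ => (n : ℝ) ^ (ε / 2)) atTop atTop :=
        (tendsto_rpow_atTop (by positivity)).comp tendsto_natCast_atTop_atTop
      have h8 := h7.inv_tendsto_atTop.const_mul C'
      simpa using h8
    refine tendsto_of_tendsto_of_tendsto_of_le_of_le' tendsto_const_nhds hlim ?_ ?_
    · exact Eventually.of_forall (fun n => by positivity)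
    · filter_upwards [eventually_ge_atTop 2] with n hn
      have hn1 : (1:ℝ) ≤ n := by exact_mod_cast (by omega : 1 ≤ n)
      have hn0 : (0:ℝ) < n := by linarith
      have hpow : (0:ℝ) < (n:ℝ) ^ ε := Real.rpow_pos_of_pos hn0 _
      rw [div_le_iff₀ hpow]
      calc (dp p D n : ℝ) ≤ C' * (n : ℝ) ^ (ε / 2) := (h5 n hn).2
        _ = C' * ((n : ℝ) ^ (ε / 2))⁻¹ * (n : ℝ) ^ ε := by
            have h9 : (n : ℝ) ^ ε = (n : ℝ) ^ (ε / 2) * (n : ℝ) ^ (ε / 2) := by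
              rw [← Real.rpow_add hn0]; congr 1; ring
            have h10 : (n : ℝ) ^ (ε / 2) ≠ 0 := (Real.rpow_pos_of_pos hn0 _).ne'
            rw [h9]
            field_simp
  refine ⟨hmain, hlim0, ?_, ⟨C₀, hC₀, ?_⟩, ?_⟩
  · intro D hD
    have h := hlim0 D hD 1 one_pos
    simpa using h
  · intro D hD
    obtain ⟨C, hC, h⟩ := h1 D hD
    exact ⟨C, hC, fun n hn => (h n hn).2⟩
  · intro hp2
    obtain ⟨c, hc, h'⟩ := lower p hp.le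
    refine ⟨c, hc, fun D hD n hn => ?_⟩
    obtain ⟨C, _, h⟩ := hmain D hD 1 one_pos
    exact h' D hD.le n _ hn (h n (by omega)).1

end Vale.Agent.Results.P249.AllDistortions
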