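import Vale.Agent.P249.Upper
import Vale.Agent.P249.Lower

open MeasureTheory

namespace Vale.Agent.Results.P249.Bounds

open Vale.Agent.P249

/-- Two-sided bounds for dimension reduction in `L_p`, `2 < p < ∞`:
`c D^{-p} (log n / log log n)^{p/2} ≤ d_p(n, D) ≤ C n log n / min(1, D - 1)^2`. -/
theorem result (p : ℝ) (hp : 2 < p) :
    ∃ c C : ℝ, 0 < c ∧ 0 < C ∧ ∀ D : ℝ, 1 < D → ∀ n : ℕ, 16 ≤ n →
      Suffices p D n (dp p D n) ∧
      c * (Real.log n / Real.log (Real.log n)) ^ (p / 2) / D ^ p ≤ (dp p D n : ℝ) ∧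
      (dp p D n : ℝ) ≤ C * n * Real.log n / (min 1 (D - 1)) ^ 2 := by
  obtain ⟨C, hC, h⟩ := upper p (by linarith)
  obtain ⟨c, hc, h'⟩ := lower p (by linarith)
  refine ⟨c, C, hc, hC, fun D hD n hn => ?_⟩
  obtain ⟨d, hd1, hd2⟩ := h D hD n (by omega)
  have hmem : d ∈ {d : ℕ | Suffices p D n d} := hd2
  have hs : Suffices p D n (dp p D n) := Nat.sInf_mem (s := {d : ℕ | Suffices p D n d}) ⟨d, hmem⟩
  refine ⟨hs, h' D hD.le n _ hn hs, ?_⟩
  have h1 : dp p D n ≤ d := Nat.sInf_le hmem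
  have h2 : (dp p D n : ℝ) ≤ d := by exact_mod_cast h1
  exact h2.trans hd1

end Vale.Agent.Results.P249.Bounds
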