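import Vale.Agent.P249.Upper

open MeasureTheory

namespace Vale.Agent.Results.P249.NLogN

open Vale.Agent.P249

/-- Near-linear dimension reduction in `L_p`, all `1 ≤ p < ∞`:
`d_p(n, D) ≤ C_p n log n / min(1, D - 1)^2`. -/
theorem result (p : ℝ) (hp : 1 ≤ p) :
    ∃ C : ℝ, 0 < C ∧ ∀ D : ℝ, 1 < D → ∀ n : ℕ, 2 ≤ n →
      Suffices p D n (dp p D n) ∧
      (dp p D n : ℝ) ≤ C * n * Real.log n / (min 1 (D - 1)) ^ 2 := by
  obtain ⟨C, hC, h⟩ := upper p hp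
  refine ⟨C, hC, fun D hD n hn => ?_⟩
  obtain ⟨d, hd1, hd2⟩ := h D hD n hn
  have hmem : d ∈ {d : ℕ | Suffices p D n d} := hd2
  refine ⟨Nat.sInf_mem (s := {d : ℕ | Suffices p D n d}) ⟨d, hmem⟩, ?_⟩
  have h1 : dp p D n ≤ d := Nat.sInf_le hmem
  have h2 : (dp p D n : ℝ) ≤ d := by exact_mod_cast h1
  exact h2.trans hd1

end Vale.Agent.Results.P249.NLogN
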