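import Vale.Agent.P249.Upper
import Vale.Agent.P249.Lower
import Vale.Agent.P249.Eps

open MeasureTheory Filter Topology

namespace Vale.Agent.Results.P249.SubPoly

open Vale.Agent.P249

/-- Nonlinear dimension reduction in `L_p`, `1 ≤ p < ∞`.

1. There is `C₀ = C₀(p) ≥ 1` such that for every `D ≥ C₀` there is `C > 0` with
   `d_p(n, D) ≤ C n ^ (C₀ / √D)` for all `n ≥ 2`.
2. For every `ε > 0` there is `D₀ ≥ 1` such that for every `D ≥ D₀`,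
   `d_p(n, D) / n ^ ε → 0`; in particular (`ε = 1`) `d_p(n, D) = o(n)` for all large `D`.
3. For every `D > 1`: `d_p(n, D) ≤ C n log n / min(1, D - 1)^2`.
4. If `p > 2`: `d_p(n, D) ≥ c D ^ (-p) (log n / log log n) ^ (p / 2)` for all `D > 1`, `n ≥ 16`. -/
theorem result (p : ℝ) (hp : 1 ≤ p) :
    (∃ C₀ : ℝ, 1 ≤ C₀ ∧ ∀ D : ℝ, C₀ ≤ D → ∃ C : ℝ, 0 < C ∧ ∀ n : ℕ, 2 ≤ n →
      Suffices p D n (dp p D n) ∧ (dp p D n : ℝ) ≤ C * (n : ℝ) ^ (C₀ / Real.sqrt D)) ∧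
    (∀ ε : ℝ, 0 < ε → ∃ D₀ : ℝ, 1 ≤ D₀ ∧ ∀ D : ℝ, D₀ ≤ D →
      Tendsto (fun n : ℕ => (dp p D n : ℝ) / (n : ℝ) ^ ε) atTop (𝓝 0)) ∧
    (∃ C : ℝ, 0 < C ∧ ∀ D : ℝ, 1 < D → ∀ n : ℕ, 2 ≤ n → Suffices p D n (dp p D n) ∧
      (dp p D n : ℝ) ≤ C * n * Real.log n / (min 1 (D - 1)) ^ 2) ∧
    (2 < p → ∃ c : ℝ, 0 < c ∧ ∀ D : ℝ, 1 < D → ∀ n : ℕ, 16 ≤ n →
      c * (Real.log n / Real.log (Real.log n)) ^ (p / 2) / D ^ p ≤ (dp p D n : ℝ)) := by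
  obtain ⟨C₀, hC₀, h1⟩ := eps_bound p hp
  obtain ⟨C, hC, h3⟩ := upper p hp
  have hall : ∀ D : ℝ, 1 < D → ∀ n : ℕ, 2 ≤ n → Suffices p D n (dp p D n) ∧
      (dp p D n : ℝ) ≤ C * n * Real.log n / (min 1 (D - 1)) ^ 2 := by
    intro D hD n hn
    obtain ⟨d, hd1, hd2⟩ := h3 D hD n hn
    have hmem : d ∈ {d : ℕ | Suffices p D n d} := hd2
    refine ⟨Nat.sInf_mem (s := {d : ℕ | Suffices p D n d}) ⟨d, hmem⟩, ?_⟩
    have h5 : dp p D n ≤ d := Nat.sInf_le hmem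
    have h6 : (dp p D n : ℝ) ≤ d := by exact_mod_cast h5
    exact h6.trans hd1
  refine ⟨⟨C₀, hC₀, h1⟩, ?_, ⟨C, hC, hall⟩, ?_⟩
  · intro ε hε
    refine ⟨max C₀ ((2 * C₀ / ε) ^ 2), le_max_of_le_left hC₀, ?_⟩
    intro D hD
    have hD1 : C₀ ≤ D := (le_max_left _ _).trans hD
    have hD2 : (2 * C₀ / ε) ^ 2 ≤ D := (le_max_right _ _).trans hD
    obtain ⟨C', hC', h5⟩ := h1 D hD1
    have hDpos : 0 < D := by linarith
    have hsq : 2 * C₀ / ε ≤ Real.sqrt D := by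
      apply Real.le_sqrt_of_sq_le hD2
    have hsqpos : 0 < Real.sqrt D := Real.sqrt_pos.mpr hDpos
    have hexp : C₀ / Real.sqrt D ≤ ε / 2 := by
      rw [div_le_iff₀ hsqpos]
      rw [div_le_iff₀ hε] at hsq
      linarith
    have hlim : Tendsto (fun n : ℕ => C' * ((n : ℝ) ^ (ε / 2))⁻¹) atTop (𝓝 0) := by
      have h7 : Tendsto (fun n : ℕ => (n : ℝ) ^ (ε / 2)) atTop atTop :=
        (tendsto_rpow_atTop (by positivity)).comp tendsto_natCast_atTop_atTop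
      have h8 := h7.inv_tendsto_atTop.const_mul C'
      simpa using h8
    refine tendsto_of_tendsto_of_tendsto_of_le_of_le' tendsto_const_nhds hlim ?_ ?_
    · exact Eventually.of_forall (fun n => by positivity)
    · filter_upwards [eventually_ge_atTop 2] with n hn
      have hn1 : (1:ℝ) ≤ n := by exact_mod_cast (by omega : 1 ≤ n)
      have hn0 : (0:ℝ) < n := by linarith
      have hpow : (0:ℝ) < (n:ℝ) ^ ε := Real.rpow_pos_of_pos hn0 _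
      rw [div_le_iff₀ hpow]
      calc (dp p D n : ℝ) ≤ C' * (n : ℝ) ^ (C₀ / Real.sqrt D) := (h5 n hn).2
        _ ≤ C' * (n : ℝ) ^ (ε / 2) :=
            mul_le_mul_of_nonneg_left (Real.rpow_le_rpow_of_exponent_le hn1 hexp) hC'.le
        _ = C' * ((n : ℝ) ^ (ε / 2))⁻¹ * (n : ℝ) ^ ε := by
            have h9 : (n : ℝ) ^ ε = (n : ℝ) ^ (ε / 2) * (n : ℝ) ^ (ε / 2) := by
              rw [← Real.rpow_add hn0]; congr 1; ring
            have h10 : (n : ℝ) ^ (ε / 2) ≠ 0 := (Real.rpow_pos_of_pos hn0 _).ne'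
            rw [h9]
            field_simp
  · intro hp2
    obtain ⟨c, hc, h'⟩ := lower p hp
    exact ⟨c, hc, fun D hD n hn => h' D hD.le n _ hn (hall D hD n (by omega)).1⟩

end Vale.Agent.Results.P249.SubPoly
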